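import Vale.Agent.P204.Defs

namespace Vale.Agent.P204

open Matrix

/-- first coordinate vector -/
def e0 : V := Pi.single 0 1

/-- row `0` of `M` without its first entry -/
def uu (M : M4) : V := fun i => if i = 0 then 0 else M 0 i

/-- squared length of `uu` -/
def nn (M : M4) : ℝ := ∑ i, uu M i ^ 2

/-- coordinate along `M u` -/
noncomputable def sg (M : M4) : V := (nn M)⁻¹ • e0

/-- coordinate along `u` -/
noncomputable def rh (M : M4) : V := (nn M)⁻¹ • (Mᵀ *ᵥ e0)

/-- projection to the complex line inside the hyperplane -/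
noncomputable def HH (M : M4) : M4 :=
  1 - vecMulVec (M *ᵥ uu M) (sg M) - vecMulVec (uu M) (rh M)

theorem mulVec_zero_coord (M : M4) : (M *ᵥ uu M) 0 = nn M := by
  simp only [mulVec, dotProduct, nn]
  refine Finset.sum_congr rfl fun i _ => ?_
  by_cases h : i = 0
  · simp [uu, h]
  · simp [uu, h, sq]

theorem uu_zero (M : M4) : uu M 0 = 0 := by simp [uu]

theorem nn_pos {M : M4} (hM : M * M = -1) : 0 < nn M := by
  have h0 : 0 ≤ nn M := Finset.sum_nonneg fun i _ => sq_nonneg _
  rcases h0.lt_or_eq with h | h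
  · exact h
  · exfalso
    have hz : ∀ i, uu M i = 0 := by
      intro i
      have := (Finset.sum_eq_zero_iff_of_nonneg (s := Finset.univ)
        (f := fun i => uu M i ^ 2) (fun i _ => sq_nonneg _)).1 h.symm i (Finset.mem_univ _)
      simpa using this
    have e : (M * M) 0 0 = -1 := by rw [hM]; simp
    rw [Matrix.mul_apply, Fin.sum_univ_four] at e
    have h1 := hz 1
    have h2 := hz 2
    have h3 := hz 3
    simp [uu] at h1 h2 h3
    rw [h1, h2, h3] at e
    nlinarith [sq_nonneg (M 0 0)]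

variable {M : M4}

theorem sg_apply (v : V) : sg M ⬝ᵥ v = v 0 / nn M := by
  simp [sg, e0, smul_dotProduct, div_eq_inv_mul]

theorem rh_apply (v : V) : rh M ⬝ᵥ v = (M *ᵥ v) 0 / nn M := by
  rw [rh, smul_dotProduct, div_eq_inv_mul, mulVec_transpose, ← dotProduct_mulVec]
  simp [e0]

theorem HH_apply (v : V) :
    HH M *ᵥ v = v - (v 0 / nn M) • (M *ᵥ uu M) - ((M *ᵥ v) 0 / nn M) • uu M := by
  rw [HH, sub_mulVec, sub_mulVec, one_mulVec, vecMulVec_mulVec, vecMulVec_mulVec, sg_apply,
    rh_apply]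
  simp only [op_smul_eq_smul]

theorem MM (hM : M * M = -1) (v : V) : M *ᵥ (M *ᵥ v) = -v := by
  rw [mulVec_mulVec, hM, neg_mulVec, one_mulVec]

theorem HH_zero (hM : M * M = -1) (v : V) : (HH M *ᵥ v) 0 = 0 := by
  have hn := (nn_pos hM).ne'
  rw [HH_apply]
  simp only [Pi.sub_apply, Pi.smul_apply, smul_eq_mul, mulVec_zero_coord, uu_zero]
  field_simp
  ring

theorem HH_comm (hM : M * M = -1) (v : V) : HH M *ᵥ (M *ᵥ v) = M *ᵥ (HH M *ᵥ v) := by
  rw [HH_apply, HH_apply, mulVec_sub, mulVec_sub, mulVec_smul, mulVec_smul, MM hM, MM hM]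
  ext i
  simp only [Pi.sub_apply, Pi.smul_apply, smul_eq_mul, Pi.neg_apply]
  ring

theorem decomp (v : V) :
    v = HH M *ᵥ v + (rh M ⬝ᵥ v) • uu M + (sg M ⬝ᵥ v) • (M *ᵥ uu M) := by
  rw [HH_apply, sg_apply, rh_apply]
  ext i
  simp only [Pi.sub_apply, Pi.add_apply, Pi.smul_apply, smul_eq_mul]
  ring

theorem sg_M (v : V) : sg M ⬝ᵥ (M *ᵥ v) = rh M ⬝ᵥ v := by rw [sg_apply, rh_apply]

theorem rh_M (hM : M * M = -1) (v : V) : rh M ⬝ᵥ (M *ᵥ v) = -(sg M ⬝ᵥ v) := by
  rw [sg_apply, rh_apply, MM hM]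
  simp [neg_div]

/-- in the complex line, every vector is a combination of `h` and `M h` -/
theorem line (hM : M * M = -1) {h k : V} (hh : h ≠ 0) (h0 : h 0 = 0) (h1 : (M *ᵥ h) 0 = 0)
    (k0 : k 0 = 0) (k1 : (M *ᵥ k) 0 = 0) : ∃ x y : ℝ, k = x • h + y • (M *ᵥ h) := by
  have hn := (nn_pos hM).ne'
  have ind : ∀ x y r s : ℝ, x • h + y • (M *ᵥ h) + r • uu M + s • (M *ᵥ uu M) = 0 →
      x = 0 ∧ y = 0 ∧ r = 0 ∧ s = 0 := by
    intro x y r s e
    have e0 := congrFun e 0
    simp only [Pi.add_apply, Pi.smul_apply, smul_eq_mul, h0, h1, uu_zero, mulVec_zero_coord,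
      Pi.zero_apply, mul_zero, add_zero, zero_add, mul_eq_zero, hn, or_false] at e0
    have e' := congrArg (fun z => M *ᵥ z) e
    simp only [mulVec_add, mulVec_smul, MM hM, mulVec_zero] at e'
    have e1 := congrFun e' 0
    simp only [Pi.add_apply, Pi.smul_apply, smul_eq_mul, h0, h1, uu_zero, mulVec_zero_coord,
      Pi.zero_apply, mul_zero, add_zero, zero_add, Pi.neg_apply, neg_zero, mul_eq_zero, hn,
      or_false] at e1
    subst e0
    subst e1
    simp only [zero_smul, add_zero] at e e'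
    have hxy : (x ^ 2 + y ^ 2) • h = 0 := by
      have : (x ^ 2 + y ^ 2) • h = x • (x • h + y • (M *ᵥ h)) - y • (x • (M *ᵥ h) + y • -h) := by
        ext i
        simp only [Pi.sub_apply, Pi.add_apply, Pi.smul_apply, smul_eq_mul, Pi.neg_apply]
        ring
      rw [this, e, e']
      simp
    rcases smul_eq_zero.1 hxy with h2 | h2
    · exact ⟨by nlinarith [sq_nonneg x, sq_nonneg y], by nlinarith [sq_nonneg x, sq_nonneg y],
        rfl, rfl⟩
    · exact absurd h2 hh
  have li : LinearIndependent ℝ ![h, M *ᵥ h, uu M, M *ᵥ uu M] := by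
    rw [Fintype.linearIndependent_iff]
    intro g hg
    rw [Fin.sum_univ_four] at hg
    simp only [Matrix.cons_val_zero, Matrix.cons_val_one, Matrix.cons_val] at hg
    obtain ⟨a, b, c, d⟩ := ind _ _ _ _ hg
    intro i
    fin_cases i
    · exact a
    · exact b
    · exact c
    · exact d
  have sp := li.span_eq_top_of_card_eq_finrank' (by simp)
  have hk : k ∈ Submodule.span ℝ (Set.range ![h, M *ᵥ h, uu M, M *ᵥ uu M]) := by
    rw [sp]; trivial
  obtain ⟨c, hc⟩ := (Submodule.mem_span_range_iff_exists_fun ℝ).1 hk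
  rw [Fin.sum_univ_four] at hc
  simp only [Matrix.cons_val_zero, Matrix.cons_val_one, Matrix.cons_val] at hc
  have c3 : c 3 = 0 := by
    have := congrFun hc 0
    simp only [Pi.add_apply, Pi.smul_apply, smul_eq_mul, h0, h1, uu_zero, mulVec_zero_coord,
      k0, mul_zero, add_zero, zero_add, mul_eq_zero, hn, or_false] at this
    exact this
  have c2 : c 2 = 0 := by
    have h' := congrArg (fun z => M *ᵥ z) hc
    simp only [mulVec_add, mulVec_smul, MM hM] at h'
    have := congrFun h' 0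
    simp only [Pi.add_apply, Pi.smul_apply, smul_eq_mul, h0, h1, uu_zero, mulVec_zero_coord,
      k1, mul_zero, add_zero, zero_add, Pi.neg_apply, neg_zero, mul_eq_zero, hn,
      or_false] at this
    exact this
  refine ⟨c 0, c 1, ?_⟩
  rw [← hc, c2, c3]
  simp

end Vale.Agent.P204
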