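import Vale.Agent.P204.Defs

namespace Vale.Agent.P204

open MeasureTheory Set
open scoped ContDiff Matrix

/-- the average over the three-torus of the entries -/
noncomputable def avg (om : V → M4) (t : ℝ) (i j : Fin 4) : ℝ :=
  ∫ y in Icc (0 : Fin 3 → ℝ) 1, om ((0 : Fin 4).insertNth t y) i j

variable {om J : V → M4}

theorem SmoothOnTorus.cont (h : SmoothOnTorus om) (i j : Fin 4) :
    Continuous (fun x => om x i j) := (h.smooth i j).continuous

theorem insertNth_add (k : Fin 4) (c : ℝ) (y : Fin 3 → ℝ) :
    (k.insertNth (c + 1) y : V) = (k.insertNth c y : V) + Pi.single k 1 := by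
  ext m
  refine Fin.succAboveCases k ?_ ?_ m
  · simp
  · intro m; simp

theorem avg_const (h : ClosedTwoForm om) {s t : ℝ} (hst : s ≤ t) {i j : Fin 4} (hi : i ≠ 0)
    (hj : j ≠ 0) : avg om t i j = avg om s i j := by
  by_cases hij : i = j
  · subst hij
    have : ∀ x, om x i i = 0 := by
      intro x
      have := congrFun (congrFun (h.alt x) i) i
      simp at this
      linarith
    simp [avg, this]
  set f : Fin 4 → V → ℝ := fun k x =>
    if k = 0 then om x i j else if k = i then om x j 0 else if k = j then om x 0 i else 0 with hf
  have hsm : ∀ k, ContDiff ℝ ∞ (f k) := by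
    intro k
    simp only [hf]
    split_ifs
    · exact h.smooth i j
    · exact h.smooth j 0
    · exact h.smooth 0 i
    · exact contDiff_const
  have hdiv : ∀ x, ∑ k, fderiv ℝ (f k) x (Pi.single k 1) = 0 := by
    intro x
    have e := h.closed x 0 i j
    unfold pd at e
    have : ∀ k, fderiv ℝ (f k) x (Pi.single k 1) =
        (if k = 0 then fderiv ℝ (fun y => om y i j) x (Pi.single 0 1) else 0) +
        (if k = i then fderiv ℝ (fun y => om y j 0) x (Pi.single i 1) else 0) +
        (if k = j then fderiv ℝ (fun y => om y 0 i) x (Pi.single j 1) else 0) := by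
      intro k
      by_cases h0 : k = 0
      · subst h0
        simp [hf, Ne.symm hi, Ne.symm hj]
      by_cases h1 : k = i
      · subst h1
        simp [hf, h0, hij]
      by_cases h2 : k = j
      · subst h2
        simp [hf, h0, h1]
      simp [hf, h0, h1, h2]
    simp_rw [this, Finset.sum_add_distrib, Finset.sum_ite_eq', Finset.mem_univ, if_true]
    exact e
  set a : V := (0 : Fin 4).insertNth s 0 with ha
  set b : V := (0 : Fin 4).insertNth t 1 with hb
  have hle : a ≤ b := by
    intro m
    refine Fin.succAboveCases 0 ?_ ?_ m
    · simp [ha, hb, hst]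
    · intro m
      have h1 : a ((0 : Fin 4).succAbove m) = 0 := by simp only [ha, Fin.insertNth_apply_succAbove]; rfl
      have h2 : b ((0 : Fin 4).succAbove m) = 1 := by simp only [hb, Fin.insertNth_apply_succAbove]; rfl
      rw [h1, h2]; exact zero_le_one
  have key := integral_divergence_of_hasFDerivAt_off_countable' (n := 3) (E := ℝ) a b hle f
    (fun k x => fderiv ℝ (f k) x) ∅ countable_empty
    (fun k => (hsm k).continuous.continuousOn)
    (fun x _ k => ((hsm k).differentiable (by simp)).differentiableAt.hasFDerivAt)
    (by simp_rw [hdiv]; exact integrableOn_zero)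
  simp_rw [hdiv] at key
  rw [integral_zero, Finset.sum_eq_single (0 : Fin 4)] at key
  · have hA : (fun k => a ((0 : Fin 4).succAbove k)) = (0 : Fin 3 → ℝ) := by
      ext m; simp only [ha, Fin.insertNth_apply_succAbove]
    have hB : (fun k => b ((0 : Fin 4).succAbove k)) = (1 : Fin 3 → ℝ) := by
      ext m; simp only [hb, Fin.insertNth_apply_succAbove]
    have e0 : a 0 = s := by simp [ha]
    have e1 : b 0 = t := by simp [hb]
    unfold avg
    simp only [Function.comp_def, hA, hB, e0, e1, hf, if_true] at key
    linarith
  · intro k _ hk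
    have hak : a k = 0 := by
      obtain ⟨m, rfl⟩ := Fin.exists_succAbove_eq hk
      simp only [ha, Fin.insertNth_apply_succAbove]; rfl
    have hbk : b k = 1 := by
      obtain ⟨m, rfl⟩ := Fin.exists_succAbove_eq hk
      simp only [hb, Fin.insertNth_apply_succAbove]; rfl
    have hper : ∀ x, f k (x + Pi.single k 1) = f k x := by
      intro x
      simp only [hf, h.periodic x k]
    rw [sub_eq_zero]
    refine setIntegral_congr_fun measurableSet_Icc ?_
    intro y _
    have : (k.insertNth (b k) y : V) = (k.insertNth (a k) y : V) + Pi.single k 1 := by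
      rw [← insertNth_add, hak, hbk, zero_add]
    simp only [this, hper]
  · intro hh; exact absurd (Finset.mem_univ _) hh

end Vale.Agent.P204
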