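import Mathlib

/-! P204: two-forms and almost complex structures on the four-torus, written as periodic
matrix-valued functions on `ℝ⁴`. -/

namespace Vale.Agent.P204

open scoped ContDiff Matrix

/-- points and tangent vectors of `ℝ⁴` -/
abbrev V := Fin 4 → ℝ

/-- `4 × 4` real matrices -/
abbrev M4 := Matrix (Fin 4) (Fin 4) ℝ

/-- the partial derivative of `f` in the `i`-th coordinate -/
noncomputable def pd (i : Fin 4) (f : V → ℝ) (x : V) : ℝ := fderiv ℝ f x (Pi.single i 1)

/-- a smooth matrix-valued function on the torus `ℝ⁴ / ℤ⁴` -/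
structure SmoothOnTorus (F : V → M4) : Prop where
  smooth : ∀ i j, ContDiff ℝ ∞ (fun x => F x i j)
  periodic : ∀ x i, F (x + Pi.single i 1) = F x

/-- a closed smooth two-form `∑_{i<j} om_ij dx_i ∧ dx_j` on the torus -/
structure ClosedTwoForm (om : V → M4) : Prop extends SmoothOnTorus om where
  alt : ∀ x, (om x)ᵀ = -om x
  closed : ∀ x i j k, pd i (fun y => om y j k) x + pd j (fun y => om y k i) x +
    pd k (fun y => om y i j) x = 0

/-- a smooth almost complex structure on the torus -/
structure AlmostComplex (J : V → M4) : Prop extends SmoothOnTorus J where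
  sq : ∀ x, J x * J x = -1

/-- `om` tames `J`: `om (v, J v) > 0` for every nonzero tangent vector `v` -/
def Tames (om J : V → M4) : Prop :=
  ∀ x v, v ≠ 0 → 0 < v ⬝ᵥ (om x *ᵥ (J x *ᵥ v))

/-- `om` is compatible with `J`: it tames `J` and `om (J u, J v) = om (u, v)` -/
def Compatible (om J : V → M4) : Prop :=
  Tames om J ∧ ∀ x u v, (J x *ᵥ u) ⬝ᵥ (om x *ᵥ (J x *ᵥ v)) = u ⬝ᵥ (om x *ᵥ v)

end Vale.Agent.P204
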