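import Vale.Agent.P204.Alg

namespace Vale.Agent.P204

open Matrix

/-- the two-form with values `a` on the hyperplane, invariant under `M` -/
noncomputable def WW (a : M4) (f : ℝ) (M : M4) : M4 :=
  (HH M)ᵀ * a * HH M
  + vecMulVec ((HH M)ᵀ *ᵥ (a *ᵥ uu M)) (rh M)
  - vecMulVec (rh M) ((HH M)ᵀ *ᵥ (a *ᵥ uu M))
  - vecMulVec ((HH M)ᵀ *ᵥ (Mᵀ *ᵥ (a *ᵥ uu M))) (sg M)
  + vecMulVec (sg M) ((HH M)ᵀ *ᵥ (Mᵀ *ᵥ (a *ᵥ uu M)))
  + f • (vecMulVec (rh M) (sg M) - vecMulVec (sg M) (rh M))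

/-- the bilinear form of `a` -/
def aa (a : M4) (v w : V) : ℝ := v ⬝ᵥ (a *ᵥ w)

variable {a M : M4}

theorem aa_anti (ha : aᵀ = -a) (v w : V) : aa a v w = -aa a w v := by
  unfold aa
  rw [dotProduct_mulVec, ← mulVec_transpose, ha, neg_mulVec, neg_dotProduct, dotProduct_comm]

theorem dot_vmv (v x y w : V) : v ⬝ᵥ (vecMulVec x y *ᵥ w) = (x ⬝ᵥ v) * (y ⬝ᵥ w) := by
  rw [vecMulVec_mulVec, op_smul_eq_smul, dotProduct_smul, smul_eq_mul, dotProduct_comm v x]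
  ring

theorem tr_dot (A : M4) (x v : V) : (Aᵀ *ᵥ x) ⬝ᵥ v = x ⬝ᵥ (A *ᵥ v) := by
  rw [mulVec_transpose, dotProduct_mulVec]

theorem WW_apply (f : ℝ) (v w : V) :
    v ⬝ᵥ (WW a f M *ᵥ w) = aa a (HH M *ᵥ v) (HH M *ᵥ w)
      + aa a (HH M *ᵥ v) (uu M) * (rh M ⬝ᵥ w) - (rh M ⬝ᵥ v) * aa a (HH M *ᵥ w) (uu M)
      - aa a (M *ᵥ (HH M *ᵥ v)) (uu M) * (sg M ⬝ᵥ w)
      + (sg M ⬝ᵥ v) * aa a (M *ᵥ (HH M *ᵥ w)) (uu M)
      + f * ((rh M ⬝ᵥ v) * (sg M ⬝ᵥ w) - (sg M ⬝ᵥ v) * (rh M ⬝ᵥ w)) := by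
  have e1 : v ⬝ᵥ (((HH M)ᵀ * a * HH M) *ᵥ w) = aa a (HH M *ᵥ v) (HH M *ᵥ w) := by
    unfold aa
    rw [← mulVec_mulVec, ← mulVec_mulVec, dotProduct_comm, tr_dot, dotProduct_comm]
  have e2 : ∀ x z : V, ((HH M)ᵀ *ᵥ (a *ᵥ x)) ⬝ᵥ z = aa a (HH M *ᵥ z) x := by
    intro x z
    rw [tr_dot, dotProduct_comm]; rfl
  have e3 : ∀ x z : V, ((HH M)ᵀ *ᵥ (Mᵀ *ᵥ (a *ᵥ x))) ⬝ᵥ z = aa a (M *ᵥ (HH M *ᵥ z)) x := by
    intro x z
    rw [tr_dot, tr_dot, dotProduct_comm]; rfl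
  unfold WW
  simp only [add_mulVec, sub_mulVec, smul_mulVec, dotProduct_add, dotProduct_sub,
    dotProduct_smul, dot_vmv, e1, e2, e3, smul_eq_mul]

theorem WW_alt (ha : aᵀ = -a) (f : ℝ) : (WW a f M)ᵀ = -WW a f M := by
  have e : ((HH M)ᵀ * a * HH M)ᵀ = -((HH M)ᵀ * a * HH M) := by
    rw [transpose_mul, transpose_mul, transpose_transpose, ha]
    simp [Matrix.mul_assoc]
  unfold WW
  simp only [transpose_add, transpose_sub, transpose_smul, transpose_vecMulVec, e]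
  rw [smul_sub, smul_sub]
  abel

theorem aa_add_left (v w z : V) : aa a (v + w) z = aa a v z + aa a w z := by
  simp [aa, add_dotProduct]

theorem aa_add_right (v w z : V) : aa a z (v + w) = aa a z v + aa a z w := by
  simp [aa, mulVec_add, dotProduct_add]

theorem aa_smul_left (c : ℝ) (v z : V) : aa a (c • v) z = c * aa a v z := by
  simp [aa, smul_dotProduct]

theorem aa_smul_right (c : ℝ) (v z : V) : aa a z (c • v) = c * aa a z v := by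
  simp [aa, mulVec_smul, dotProduct_smul]

theorem aa_neg_left (v z : V) : aa a (-v) z = -aa a v z := by
  simp [aa]

theorem aa_self (ha : aᵀ = -a) (v : V) : aa a v v = 0 := by
  have := aa_anti ha v v
  linarith

theorem WW_plane (ha : aᵀ = -a) (f : ℝ) {v w : V} (hv : v 0 = 0) (hw : w 0 = 0) :
    v ⬝ᵥ (WW a f M *ᵥ w) = aa a v w := by
  have sv : sg M ⬝ᵥ v = 0 := by rw [sg_apply, hv, zero_div]
  have sw : sg M ⬝ᵥ w = 0 := by rw [sg_apply, hw, zero_div]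
  rw [WW_apply, sv, sw]
  have dv := decomp (M := M) v
  have dw := decomp (M := M) w
  rw [sv, zero_smul, add_zero] at dv
  rw [sw, zero_smul, add_zero] at dw
  set hv' := HH M *ᵥ v
  set hw' := HH M *ᵥ w
  set r := rh M ⬝ᵥ v
  set r' := rh M ⬝ᵥ w
  rw [dv, dw]
  simp only [aa_add_left, aa_add_right, aa_smul_left, aa_smul_right, aa_self ha]
  rw [aa_anti ha (uu M) hw']
  ring

theorem aa_line (ha : aᵀ = -a) (hM : M * M = -1) {h k : V} (h0 : h 0 = 0)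
    (h1 : (M *ᵥ h) 0 = 0) (k0 : k 0 = 0) (k1 : (M *ᵥ k) 0 = 0) :
    aa a (M *ᵥ h) (M *ᵥ k) = aa a h k := by
  by_cases hh : h = 0
  · subst hh; simp [aa]
  obtain ⟨x, y, rfl⟩ := line hM hh h0 h1 k0 k1
  rw [mulVec_add, mulVec_smul, mulVec_smul, MM hM]
  simp only [aa_add_right, aa_smul_right, aa_self ha]
  have : aa a (M *ᵥ h) (-h) = aa a h (M *ᵥ h) := by
    rw [aa_anti ha, aa_neg_left]; ring
  rw [this]

theorem WW_compat (ha : aᵀ = -a) (hM : M * M = -1) (f : ℝ) (v w : V) :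
    (M *ᵥ v) ⬝ᵥ (WW a f M *ᵥ (M *ᵥ w)) = v ⬝ᵥ (WW a f M *ᵥ w) := by
  have hz : ∀ z : V, (M *ᵥ (HH M *ᵥ z)) 0 = 0 := by
    intro z; rw [← HH_comm hM]; exact HH_zero hM _
  rw [WW_apply, WW_apply, HH_comm hM, HH_comm hM, MM hM, MM hM, rh_M hM, rh_M hM, sg_M, sg_M,
    aa_line ha hM (HH_zero hM v) (hz v) (HH_zero hM w) (hz w), aa_neg_left, aa_neg_left]
  ring

theorem WW_tame (hM : M * M = -1) (f : ℝ) (v : V) :
    v ⬝ᵥ (WW a f M *ᵥ (M *ᵥ v)) = v ⬝ᵥ (WW a 0 M *ᵥ (M *ᵥ v)) +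
      f * ((rh M ⬝ᵥ v) ^ 2 + (sg M ⬝ᵥ v) ^ 2) := by
  rw [WW_apply, WW_apply, rh_M hM, sg_M]
  ring

theorem fixed_of_zero (hM : M * M = -1) {v : V} (hr : rh M ⬝ᵥ v = 0) (hs : sg M ⬝ᵥ v = 0) :
    v 0 = 0 ∧ (M *ᵥ v) 0 = 0 := by
  have hn := (nn_pos hM).ne'
  rw [rh_apply, div_eq_zero_iff] at hr
  rw [sg_apply, div_eq_zero_iff] at hs
  exact ⟨hs.resolve_right hn, hr.resolve_right hn⟩

/-- the compactness argument -/
theorem exists_mult {X : Type*} [TopologicalSpace X] {K : Set X} (hK : IsCompact K)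
    {P Q : X → ℝ} (hP : Continuous P) (hQ : Continuous Q) (hQ0 : ∀ x ∈ K, 0 ≤ Q x)
    (h : ∀ x ∈ K, Q x = 0 → 0 < P x) : ∃ f : ℝ, ∀ x ∈ K, 0 < P x + f * Q x := by
  set K0 := K ∩ P ⁻¹' Set.Iic 0 with hK0
  have hc : IsCompact K0 := hK.inter_right (isClosed_Iic.preimage hP)
  rcases K0.eq_empty_or_nonempty with he | hne
  · refine ⟨0, fun x hx => ?_⟩
    by_contra hcon
    have : x ∈ K0 := ⟨hx, by simpa using hcon⟩
    rw [he] at this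
    exact this
  · obtain ⟨x1, hx1, m1⟩ := hc.exists_isMinOn hne hQ.continuousOn
    obtain ⟨x2, hx2, m2⟩ := hc.exists_isMinOn hne hP.continuousOn
    have q0 : 0 < Q x1 := by
      rcases (hQ0 x1 hx1.1).lt_or_eq with h' | h'
      · exact h'
      · have := h x1 hx1.1 h'.symm
        have h2 : P x1 ≤ 0 := hx1.2
        linarith
    have p0 : P x2 ≤ 0 := hx2.2
    refine ⟨-P x2 / Q x1 + 1, fun x hx => ?_⟩
    have f0 : 0 ≤ -P x2 / Q x1 := div_nonneg (by linarith) q0.le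
    by_cases hx0 : x ∈ K0
    · have a1 : Q x1 ≤ Q x := m1 hx0
      have a2 : P x2 ≤ P x := m2 hx0
      have e : -P x2 / Q x1 * Q x1 = -P x2 := by field_simp
      have : -P x2 / Q x1 * Q x1 ≤ -P x2 / Q x1 * Q x := mul_le_mul_of_nonneg_left a1 f0
      nlinarith
    · have : 0 < P x := by
        by_contra hcon
        exact hx0 ⟨hx, by simpa using hcon⟩
      have := mul_nonneg (add_nonneg f0 zero_le_one) (hQ0 x hx)
      linarith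

end Vale.Agent.P204
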