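import Vale.Agent.P204.Form
import Vale.Agent.P204.Avg

namespace Vale.Agent.P204

open Matrix MeasureTheory Set
open scoped ContDiff

/-- smooth matrix-valued functions of one variable -/
def Sm (F : ℝ → M4) : Prop := ∀ i j, ContDiff ℝ ∞ (fun t => F t i j)

/-- smooth vector-valued functions of one variable -/
def Sv (F : ℝ → V) : Prop := ∀ i, ContDiff ℝ ∞ (fun t => F t i)

theorem Sm.mul {F G : ℝ → M4} (hF : Sm F) (hG : Sm G) : Sm (fun t => F t * G t) := by
  intro i j
  simp only [Matrix.mul_apply]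
  exact ContDiff.sum fun k _ => (hF i k).mul (hG k j)

theorem Sm.add {F G : ℝ → M4} (hF : Sm F) (hG : Sm G) : Sm (fun t => F t + G t) :=
  fun i j => (hF i j).add (hG i j)

theorem Sm.sub {F G : ℝ → M4} (hF : Sm F) (hG : Sm G) : Sm (fun t => F t - G t) :=
  fun i j => (hF i j).sub (hG i j)

theorem Sm.smul (c : ℝ) {F : ℝ → M4} (hF : Sm F) : Sm (fun t => c • F t) :=
  fun i j => contDiff_const.mul (hF i j)

theorem Sm.tr {F : ℝ → M4} (hF : Sm F) : Sm (fun t => (F t)ᵀ) := fun i j => hF j i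

theorem Sm.const (a : M4) : Sm (fun _ => a) := fun _ _ => contDiff_const

theorem Sm.mv {F : ℝ → M4} {v : ℝ → V} (hF : Sm F) (hv : Sv v) : Sv (fun t => F t *ᵥ v t) := by
  intro i
  simp only [mulVec, dotProduct]
  exact ContDiff.sum fun k _ => (hF i k).mul (hv k)

theorem Sv.vmv {v w : ℝ → V} (hv : Sv v) (hw : Sv w) : Sm (fun t => vecMulVec (v t) (w t)) :=
  fun i j => (hv i).mul (hw j)

theorem Sm.uu {F : ℝ → M4} (hF : Sm F) : Sv (fun t => uu (F t)) := by
  intro i
  by_cases h : i = 0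
  · simp only [Vale.Agent.P204.uu, h, if_true]; exact contDiff_const
  · simp only [Vale.Agent.P204.uu, h, if_false]; exact hF 0 i

theorem Sm.nninv {F : ℝ → M4} (hF : Sm F) (h : ∀ t, F t * F t = -1) :
    ContDiff ℝ ∞ (fun t => (nn (F t))⁻¹) := by
  refine ContDiff.inv ?_ fun t => (nn_pos (h t)).ne'
  unfold nn
  exact ContDiff.sum fun k _ => (hF.uu k).pow 2

theorem Sm.sg {F : ℝ → M4} (hF : Sm F) (h : ∀ t, F t * F t = -1) : Sv (fun t => sg (F t)) :=
  fun _ => (hF.nninv h).mul contDiff_const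

theorem Sm.rh {F : ℝ → M4} (hF : Sm F) (h : ∀ t, F t * F t = -1) : Sv (fun t => rh (F t)) :=
  fun i => (hF.nninv h).mul (hF.tr.mv (v := fun _ => e0) (fun _ => contDiff_const) i)

theorem Sm.HH {F : ℝ → M4} (hF : Sm F) (h : ∀ t, F t * F t = -1) : Sm (fun t => HH (F t)) :=
  ((Sm.const 1).sub ((hF.mv hF.uu).vmv (hF.sg h))).sub (hF.uu.vmv (hF.rh h))

theorem Sm.WW {F : ℝ → M4} (hF : Sm F) (h : ∀ t, F t * F t = -1) (a : M4) (f : ℝ) :
    Sm (fun t => WW a f (F t)) := by
  have x1 : Sv (fun t => (Vale.Agent.P204.HH (F t))ᵀ *ᵥ (a *ᵥ Vale.Agent.P204.uu (F t))) :=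
    (hF.HH h).tr.mv ((Sm.const a).mv hF.uu)
  have x2 : Sv (fun t => (Vale.Agent.P204.HH (F t))ᵀ *ᵥ ((F t)ᵀ *ᵥ
      (a *ᵥ Vale.Agent.P204.uu (F t)))) :=
    (hF.HH h).tr.mv (hF.tr.mv ((Sm.const a).mv hF.uu))
  exact (((((((hF.HH h).tr.mul (Sm.const a)).mul (hF.HH h)).add (x1.vmv (hF.rh h))).sub
    ((hF.rh h).vmv x1)).sub (x2.vmv (hF.sg h))).add ((hF.sg h).vmv x2)).add
    ((((hF.rh h).vmv (hF.sg h)).sub ((hF.sg h).vmv (hF.rh h))).smul f)

theorem Sm.cont {F : ℝ → M4} (hF : Sm F) : Continuous F :=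
  continuous_matrix fun i j => (hF i j).continuous

theorem Sv.cont {F : ℝ → V} (hF : Sv F) : Continuous F :=
  continuous_pi fun i => (hF i).continuous

/-- the almost complex structure as a function of the first coordinate -/
noncomputable def Jt (J : V → M4) (t : ℝ) : M4 := J (Pi.single 0 t)

variable {om J : V → M4}

theorem Jt_sm (hJ : SmoothOnTorus J) : Sm (Jt J) := by
  intro i j
  have : ContDiff ℝ ∞ (fun t : ℝ => (Pi.single 0 t : V)) := by
    rw [contDiff_pi]
    intro k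
    by_cases h : k = 0
    · subst h; simp only [Pi.single_eq_same]; exact contDiff_id
    · simp only [Pi.single_eq_of_ne h]; exact contDiff_const
  exact (hJ.smooth i j).comp this

theorem Jt_per (hJ : SmoothOnTorus J) (t : ℝ) : Jt J (t + 1) = Jt J t := by
  unfold Jt
  rw [Pi.single_add, hJ.periodic]

/-- the matrix of averages -/
noncomputable def aM (om : V → M4) : M4 :=
  Matrix.of fun i j => if i = 0 ∨ j = 0 then 0 else avg om 0 i j

theorem aM_alt (h : ClosedTwoForm om) : (aM om)ᵀ = -aM om := by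
  ext i j
  simp only [aM, transpose_apply, Matrix.of_apply, Matrix.neg_apply]
  by_cases hij : i = 0 ∨ j = 0
  · rw [if_pos hij, if_pos hij.symm, neg_zero]
  · rw [if_neg hij, if_neg (fun h' => hij h'.symm)]
    unfold avg
    rw [← integral_neg]
    refine integral_congr_ae (Filter.Eventually.of_forall fun y => ?_)
    have := congrFun (congrFun (h.alt ((0 : Fin 4).insertNth 0 y)) i) j
    simpa using this

theorem avg_eq (h : ClosedTwoForm om) (t : ℝ) {i j : Fin 4} (hi : i ≠ 0) (hj : j ≠ 0) :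
    avg om 0 i j = avg om t i j := by
  rcases le_total 0 t with h' | h'
  · exact (avg_const h h' hi hj).symm
  · exact avg_const h h' hi hj

theorem aM_pos (h : ClosedTwoForm om)
    (hinv : ∀ x y : V, x 0 = y 0 → J x = J y) (ht : Tames om J) (t : ℝ) {v : V} (hv : v ≠ 0)
    (h0 : v 0 = 0) (h1 : (Jt J t *ᵥ v) 0 = 0) : 0 < aa (aM om) v (Jt J t *ᵥ v) := by
  set w := Jt J t *ᵥ v with hw
  have hcontV : Continuous fun y : Fin 3 → ℝ => ((0 : Fin 4).insertNth t y : V) := by
    refine continuous_pi fun m => ?_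
    refine Fin.succAboveCases 0 ?_ ?_ m
    · simp only [Fin.insertNth_apply_same]; exact continuous_const
    · intro m; simp only [Fin.insertNth_apply_succAbove]; exact continuous_apply m
  have hint : ∀ i j, IntegrableOn (fun y : Fin 3 → ℝ => om ((0 : Fin 4).insertNth t y) i j)
      (Icc 0 1) := fun i j =>
    ((h.toSmoothOnTorus.cont i j).comp hcontV).continuousOn.integrableOn_compact isCompact_Icc
  have e : aa (aM om) v w = ∫ y in Icc (0 : Fin 3 → ℝ) 1,
      v ⬝ᵥ (om ((0 : Fin 4).insertNth t y) *ᵥ w) := by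
    have e1 : ∀ y : Fin 3 → ℝ, v ⬝ᵥ (om ((0 : Fin 4).insertNth t y) *ᵥ w) =
        ∑ i, ∑ j, v i * w j * om ((0 : Fin 4).insertNth t y) i j := by
      intro y
      simp only [dotProduct, mulVec, Finset.mul_sum]
      refine Finset.sum_congr rfl fun i _ => Finset.sum_congr rfl fun j _ => by ring
    simp_rw [e1]
    rw [integral_finsetSum _ fun i _ => integrable_finsetSum _ fun j _ =>
      (hint i j).const_mul _]
    simp_rw [integral_finsetSum Finset.univ fun j _ => (hint _ j).const_mul _,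
      integral_const_mul]
    simp only [aa, dotProduct, mulVec, Finset.mul_sum]
    refine Finset.sum_congr rfl fun i _ => Finset.sum_congr rfl fun j _ => ?_
    by_cases hij : i = 0 ∨ j = 0
    · simp only [aM, Matrix.of_apply, if_pos hij]
      rcases hij with rfl | rfl
      · rw [h0]; ring
      · rw [h1]; ring
    · simp only [aM, Matrix.of_apply, if_neg hij]
      push Not at hij
      rw [avg_eq h t hij.1 hij.2]
      unfold avg
      ring
  rw [e]
  have hg : ∀ y : Fin 3 → ℝ, 0 < v ⬝ᵥ (om ((0 : Fin 4).insertNth t y) *ᵥ w) := by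
    intro y
    have := ht ((0 : Fin 4).insertNth t y) v hv
    rwa [show J ((0 : Fin 4).insertNth t y) = Jt J t from hinv _ _ (by simp)] at this
  have hcont : Continuous fun y : Fin 3 → ℝ =>
      v ⬝ᵥ (om ((0 : Fin 4).insertNth t y) *ᵥ w) := by
    simp only [dotProduct, mulVec]
    exact continuous_finsetSum _ fun i _ => continuous_const.mul
      (continuous_finsetSum _ fun j _ =>
        ((h.toSmoothOnTorus.cont i j).comp hcontV).mul continuous_const)
  rw [setIntegral_pos_iff_support_of_nonneg_ae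
    (Filter.Eventually.of_forall fun y => (hg y).le)
    (hcont.continuousOn.integrableOn_compact isCompact_Icc)]
  have : Function.support (fun y : Fin 3 → ℝ =>
      v ⬝ᵥ (om ((0 : Fin 4).insertNth t y) *ᵥ w)) ∩ Icc 0 1 = Icc 0 1 := by
    rw [inter_eq_right]
    intro y _
    exact (hg y).ne'
  rw [this, Real.volume_Icc_pi]
  simp

theorem pd_comp {G : ℝ → ℝ} (hG : ContDiff ℝ ∞ G) (i : Fin 4) (x : V) :
    pd i (fun y => G (y 0)) x = (if i = 0 then 1 else 0) * deriv G (x 0) := by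
  have h1 : HasDerivAt G (deriv G (x 0)) (x 0) :=
    ((hG.differentiable (by simp)).differentiableAt).hasDerivAt
  have h2 : HasFDerivAt (fun y : V => y 0) (ContinuousLinearMap.proj (R := ℝ) 0) x :=
    (ContinuousLinearMap.proj (R := ℝ) (φ := fun _ : Fin 4 => ℝ) 0).hasFDerivAt
  have h3 := h1.comp_hasFDerivAt x h2
  unfold pd
  have h4 : fderiv ℝ (fun y : V => G (y 0)) x = _ := h3.fderiv
  rw [h4]
  by_cases h : i = 0
  · subst h; simp
  · simp [h]

theorem closed_of {F : ℝ → M4} (hF : Sm F) (halt : ∀ t, (F t)ᵀ = -F t)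
    (hc : ∀ i j, i ≠ 0 → j ≠ 0 → ∀ s t, F s i j = F t i j) (x : V) (i j k : Fin 4) :
    pd i (fun y => F (y 0) j k) x + pd j (fun y => F (y 0) k i) x +
    pd k (fun y => F (y 0) i j) x = 0 := by
  rw [pd_comp (hF j k), pd_comp (hF k i), pd_comp (hF i j)]
  set D : Fin 4 → Fin 4 → ℝ := fun a b => deriv (fun t => F t a b) (x 0) with hD
  have anti : ∀ a b, D a b = -D b a := by
    intro a b
    have : (fun t => F t a b) = fun t => -F t b a := by
      ext t
      have := congrFun (congrFun (halt t) b) a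
      simpa using this
    simp only [hD]
    rw [this]
    exact deriv.fun_neg
  have zero : ∀ a b, a ≠ 0 → b ≠ 0 → D a b = 0 := by
    intro a b ha hb
    have : (fun t => F t a b) = fun _ => F 0 a b := by
      ext t; exact hc a b ha hb t 0
    simp only [hD]
    rw [this]
    exact deriv_const _ _
  change _ * D j k + _ * D k i + _ * D i j = 0
  have z0 : D 0 0 = 0 := by have := anti 0 0; linarith
  by_cases hi : i = 0 <;> by_cases hj : j = 0 <;> by_cases hk : k = 0
  · subst hi hj hk; simp [z0]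
  · subst hi hj; simp only [hk, if_true, if_false]; rw [anti 0 k]; ring
  · subst hi hk; simp only [hj, if_true, if_false]; rw [anti j 0]; ring
  · subst hi; simp only [hj, hk, if_true, if_false]; rw [zero j k hj hk]; ring
  · subst hj hk; simp only [hi, if_true, if_false]; rw [anti 0 i]; ring
  · subst hj; simp only [hi, hk, if_true, if_false]; rw [zero k i hk hi]; ring
  · subst hk; simp only [hi, hj, if_true, if_false]; rw [zero i j hi hj]; ring
  · simp only [hi, hj, hk, if_false]; ring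

theorem entry (A : M4) (i j : Fin 4) :
    (Pi.single i 1 : V) ⬝ᵥ (A *ᵥ (Pi.single j 1 : V)) = A i j := by
  simp

/-- the main theorem -/
theorem exists_compatible (hJ : AlmostComplex J) (hinv : ∀ x y : V, x 0 = y 0 → J x = J y)
    (hom : ClosedTwoForm om) (ht : Tames om J) :
    ∃ om' : V → M4, ClosedTwoForm om' ∧ Compatible om' J := by
  have hsq : ∀ t, Jt J t * Jt J t = -1 := fun t => hJ.sq _
  have hsm := Jt_sm hJ.toSmoothOnTorus
  set a := aM om with ha
  have halt : aᵀ = -a := aM_alt hom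
  have cJ : Continuous fun p : ℝ × V => Jt J p.1 := hsm.cont.comp continuous_fst
  have cW : Continuous fun p : ℝ × V => WW a 0 (Jt J p.1) :=
    (hsm.WW hsq a 0).cont.comp continuous_fst
  have cr : Continuous fun p : ℝ × V => rh (Jt J p.1) := (hsm.rh hsq).cont.comp continuous_fst
  have cs : Continuous fun p : ℝ × V => sg (Jt J p.1) := (hsm.sg hsq).cont.comp continuous_fst
  have cP : Continuous fun p : ℝ × V =>
      p.2 ⬝ᵥ (WW a 0 (Jt J p.1) *ᵥ (Jt J p.1 *ᵥ p.2)) :=
    continuous_snd.dotProduct (cW.matrix_mulVec (cJ.matrix_mulVec continuous_snd))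
  have cQ : Continuous fun p : ℝ × V =>
      (rh (Jt J p.1) ⬝ᵥ p.2) ^ 2 + (sg (Jt J p.1) ⬝ᵥ p.2) ^ 2 :=
    ((cr.dotProduct continuous_snd).pow 2).add ((cs.dotProduct continuous_snd).pow 2)
  have hK : IsCompact (Icc (0 : ℝ) 1 ×ˢ Metric.sphere (0 : V) 1) :=
    isCompact_Icc.prod (isCompact_sphere _ _)
  obtain ⟨f, hf⟩ := exists_mult hK cP cQ (fun p _ => by positivity) (by
    rintro ⟨t, v⟩ ⟨_, hv⟩ h0
    simp only at h0 hv ⊢
    have q1 := sq_nonneg (rh (Jt J t) ⬝ᵥ v)
    have q2 := sq_nonneg (sg (Jt J t) ⬝ᵥ v)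
    have hr : rh (Jt J t) ⬝ᵥ v = 0 := pow_eq_zero_iff (two_ne_zero) |>.1 (by linarith)
    have hs : sg (Jt J t) ⬝ᵥ v = 0 := pow_eq_zero_iff (two_ne_zero) |>.1 (by linarith)
    obtain ⟨v0, v1⟩ := fixed_of_zero (hsq t) hr hs
    rw [WW_plane halt 0 v0 v1]
    have hv0 : v ≠ 0 := by
      rintro rfl
      simp at hv
    exact aM_pos hom hinv ht t hv0 v0 v1)
  have hpos : ∀ t v, v ≠ 0 → 0 < v ⬝ᵥ (WW a f (Jt J t) *ᵥ (Jt J t *ᵥ v)) := by
    intro t v hv
    obtain ⟨s, hs, hst⟩ := (show Function.Periodic (Jt J) 1 from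
      Jt_per hJ.toSmoothOnTorus).exists_mem_Ico₀ one_pos t
    rw [hst]
    have hn : 0 < ‖v‖ := norm_pos_iff.2 hv
    have h1 := hf (s, ‖v‖⁻¹ • v) ⟨⟨hs.1, hs.2.le⟩, by
      simp [norm_smul, hn.ne']⟩
    simp only at h1
    rw [← WW_tame (hsq s)] at h1
    simp only [mulVec_smul, smul_dotProduct, dotProduct_smul, smul_eq_mul] at h1
    by_contra hcon
    push Not at hcon
    have : ‖v‖⁻¹ * (‖v‖⁻¹ * (v ⬝ᵥ (WW a f (Jt J s) *ᵥ (Jt J s *ᵥ v)))) ≤ 0 :=
      mul_nonpos_of_nonneg_of_nonpos (by positivity)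
        (mul_nonpos_of_nonneg_of_nonpos (by positivity) hcon)
    linarith
  have hJx : ∀ x, J x = Jt J (x 0) := fun x => hinv _ _ (by simp)
  refine ⟨fun x => WW a f (Jt J (x 0)), ⟨⟨?_, ?_⟩, ?_, ?_⟩, ?_, ?_⟩
  · intro i j
    exact ((hsm.WW hsq a f) i j).comp (contDiff_apply ℝ ℝ (0 : Fin 4))
  · intro x i
    by_cases h : i = 0
    · subst h
      simp only [Pi.add_apply, Pi.single_eq_same, Jt_per hJ.toSmoothOnTorus]
    · simp only [Pi.add_apply, Pi.single_eq_of_ne (Ne.symm h), add_zero]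
  · intro x; exact WW_alt halt f
  · intro x i j k
    refine closed_of (hsm.WW hsq a f) (fun t => WW_alt halt f) ?_ x i j k
    intro i j hi hj s t
    rw [← entry (WW a f (Jt J s)), ← entry (WW a f (Jt J t)), WW_plane halt f, WW_plane halt f]
    all_goals simp [Pi.single_eq_of_ne, Ne.symm hi, Ne.symm hj]
  · intro x v hv
    rw [hJx x]
    exact hpos _ v hv
  · intro x u v
    rw [hJx x]
    exact WW_compat halt (hsq _) f u v

end Vale.Agent.P204
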